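import Mathlib

/-!
# P188, D-block (616 v2): LC and STRAIGHT

* `LData.sigma_eq`, `LData.sigma_eq_list`: deterministic comparison of labels of two nearby points.
* `markov_count`: Markov inequality for a finite family of arbitrary sets.
* `LData.mu_sigma_ne_le`: measure form of LC.
* `straight_det`, `mu_straight_le`: straightness of `f` along finite paths.
-/

noncomputable section

namespace Vale.P188.H654

open MeasureTheory Finset
open scoped ENNReal

/-- Data for the comparison of labels.  `t v` are the translations in the directions `v`,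
`β b` the target functionals, `P v s` the set of `b` which grow in direction `v` at a point with
label `s`. -/
structure LData (S V Φ Lab Dir : Type*) [Group S] [NormedAddCommGroup V] where
  t : Dir → S
  neg : Dir → Dir
  t_neg : ∀ v, t (neg v) = (t v)⁻¹
  β : Φ → V → ℝ
  B : ℝ
  B_nonneg : 0 ≤ B
  lipβ : ∀ b x y, |β b x - β b y| ≤ B * ‖x - y‖
  P : Dir → Lab → Set Φ
  P_neg : ∀ v s, P (neg v) s = (P v s)ᶜ
  P_inj : ∀ s s', (∀ v, P v s = P v s') → s = s'
  f : S → V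
  l : S → ℝ
  L : ℝ
  L_nonneg : 0 ≤ L
  lipf : ∀ z g, ‖f (z * g) - f z‖ ≤ L * l g

namespace LData

variable {S V Φ Lab Dir : Type*} [Group S] [NormedAddCommGroup V] (Δ : LData S V Φ Lab Dir)
variable (σ : S → Lab) (J : ℕ) (m d : ℝ)

/-- at `z` every `β b ∘ f` moves by at least `m`, in the sense given by the label of `z`, along
`J` steps in direction `v`. -/
def Mg (z : S) (v : Dir) : Prop :=
  ∀ b, (b ∈ Δ.P v (σ z) → m ≤ Δ.β b (Δ.f (z * Δ.t v ^ J)) - Δ.β b (Δ.f z)) ∧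
    (b ∉ Δ.P v (σ z) → Δ.β b (Δ.f (z * Δ.t v ^ J)) - Δ.β b (Δ.f z) ≤ -m)

/-- all directions -/
def Good (z : S) : Prop := ∀ v, Δ.Mg σ J m z v

/-- the two lines through `z` and `z * g` in direction `v` are close at both ends -/
def StableAt (g : S) (v : Dir) : Prop :=
  Δ.B * (Δ.L * Δ.l g) ≤ d ∧ Δ.B * (Δ.L * Δ.l ((Δ.t v ^ J)⁻¹ * g * Δ.t v ^ J)) ≤ d

/-- stable for every direction or its opposite -/
def Stable (g : S) : Prop := ∀ v, Δ.StableAt J d g v ∨ Δ.StableAt J d g (Δ.neg v)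

variable {Δ σ J m d}

theorem P_eq {z g : S} {v : Dir} (hz : Δ.Mg σ J m z v) (hzg : Δ.Mg σ J m (z * g) v)
    (hg : Δ.StableAt J d g v) (hd : d < m) : Δ.P v (σ z) = Δ.P v (σ (z * g)) := by
  have h0 : ∀ b, |Δ.β b (Δ.f (z * g)) - Δ.β b (Δ.f z)| ≤ d := fun b =>
    (Δ.lipβ b _ _).trans ((mul_le_mul_of_nonneg_left (Δ.lipf z g) Δ.B_nonneg).trans hg.1)
  have h1 : ∀ b, |Δ.β b (Δ.f (z * g * Δ.t v ^ J)) - Δ.β b (Δ.f (z * Δ.t v ^ J))| ≤ d := by
    intro b
    have e : z * g * Δ.t v ^ J = z * Δ.t v ^ J * ((Δ.t v ^ J)⁻¹ * g * Δ.t v ^ J) := by group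
    rw [e]
    exact (Δ.lipβ b _ _).trans ((mul_le_mul_of_nonneg_left (Δ.lipf _ _) Δ.B_nonneg).trans hg.2)
  ext b
  have a0 := abs_le.1 (h0 b)
  have a1 := abs_le.1 (h1 b)
  constructor
  · intro hb
    by_contra hb'
    have e1 := (hz b).1 hb
    have e2 := (hzg b).2 hb'
    linarith [a0.1, a0.2, a1.1, a1.2]
  · intro hb
    by_contra hb'
    have e1 := (hz b).2 hb'
    have e2 := (hzg b).1 hb
    linarith [a0.1, a0.2, a1.1, a1.2]

/-- **LC**, deterministic form -/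
theorem sigma_eq {z g : S} (hz : Δ.Good σ J m z) (hzg : Δ.Good σ J m (z * g))
    (hg : Δ.Stable J d g) (hd : d < m) : σ z = σ (z * g) := by
  apply Δ.P_inj
  intro v
  rcases hg v with h | h
  · exact P_eq (hz v) (hzg v) h hd
  · have := P_eq (hz (Δ.neg v)) (hzg (Δ.neg v)) h hd
    rw [Δ.P_neg, Δ.P_neg] at this
    exact compl_injective this

/-- **LC** along a list of stable moves -/
theorem sigma_eq_list {z : S} (gs : List S) (hgs : ∀ g ∈ gs, Δ.Stable J d g)
    (hgood : ∀ i ≤ gs.length, Δ.Good σ J m (z * (gs.take i).prod)) (hd : d < m) :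
    σ z = σ (z * gs.prod) := by
  induction gs generalizing z with
  | nil => simp
  | cons g gs ih =>
    have h0 : Δ.Good σ J m z := by simpa using hgood 0 (Nat.zero_le _)
    have h1 : Δ.Good σ J m (z * g) := by
      have := hgood 1 (by simp)
      simpa using this
    have e1 := sigma_eq h0 h1 (hgs g (by simp)) hd
    have e2 := ih (z := z * g) (fun x hx => hgs x (List.mem_cons_of_mem _ hx)) (by
      intro i hi
      have := hgood (i + 1) (by simpa using hi)
      rw [List.take_succ_cons, List.prod_cons, ← mul_assoc] at this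
      exact this)
    rw [e1, e2, List.prod_cons, mul_assoc]

end LData

/-! ### measure part -/

variable {S : Type*} [Group S] [MeasurableSpace S]

/-- right translations do not increase the (outer) measure of any set -/
def RI (μ : Measure S) : Prop := ∀ (g : S) (A : Set S), μ ((fun z => z * g) ⁻¹' A) ≤ μ A

theorem RI.of_measurable (μ : Measure S)
    (h : ∀ (g : S) (A : Set S), MeasurableSet A → μ ((fun z => z * g) ⁻¹' A) = μ A) : RI μ := by
  intro g A
  calc μ ((fun z => z * g) ⁻¹' A) ≤ μ ((fun z => z * g) ⁻¹' toMeasurable μ A) :=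
        measure_mono (Set.preimage_mono (subset_toMeasurable μ A))
    _ = μ (toMeasurable μ A) := h g _ (measurableSet_toMeasurable μ A)
    _ = μ A := measure_toMeasurable A

open Classical in
/-- Markov inequality for a finite family of arbitrary sets. -/
theorem markov_count {X : Type*} [MeasurableSpace X] (μ : Measure X) {I : Type*} (s : Finset I)
    (A : I → Set X) (c : ℕ) :
    (c : ℝ≥0∞) * μ {z | c ≤ (s.filter fun i => z ∈ A i).card} ≤ ∑ i ∈ s, μ (A i) := by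
  set F : X → ℝ≥0∞ := fun z => ∑ i ∈ s, (toMeasurable μ (A i)).indicator (fun _ => 1) z with hF
  have hFm : Measurable F :=
    Finset.measurable_sum s fun i _ => measurable_const.indicator (measurableSet_toMeasurable _ _)
  have h1 : {z | c ≤ (s.filter fun i => z ∈ A i).card} ⊆ {z | (c : ℝ≥0∞) ≤ F z} := by
    intro z hz
    simp only [Set.mem_ofPred_eq] at hz ⊢
    calc (c : ℝ≥0∞) ≤ ((s.filter fun i => z ∈ A i).card : ℝ≥0∞) := by exact_mod_cast hz
      _ = ∑ i ∈ s, (if z ∈ A i then 1 else 0 : ℝ≥0∞) := by simp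
      _ ≤ F z := by
        refine Finset.sum_le_sum fun i _ => ?_
        split_ifs with h
        · rw [Set.indicator_of_mem (subset_toMeasurable μ _ h)]
        · exact zero_le
  calc (c : ℝ≥0∞) * μ {z | c ≤ (s.filter fun i => z ∈ A i).card}
      ≤ c * μ {z | (c : ℝ≥0∞) ≤ F z} := mul_le_mul_right (measure_mono h1) _
    _ ≤ ∫⁻ z, F z ∂μ := mul_meas_ge_le_lintegral hFm _
    _ = ∑ i ∈ s, μ (A i) := by
        rw [hF, lintegral_finsetSum]
        · refine Finset.sum_congr rfl fun i _ => ?_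
          rw [lintegral_indicator_const (measurableSet_toMeasurable _ _), one_mul,
            measure_toMeasurable]
        · exact fun i _ => measurable_const.indicator (measurableSet_toMeasurable _ _)

/-- union bound over prefixes -/
theorem mu_prefix_le {μ : Measure S} (hμ : RI μ) {D Dp G : Set S} {n : ℕ} (w : ℕ → S)
    (hD : ∀ i ≤ n, ∀ z ∈ D, z * w i ∈ Dp) {e : ℝ≥0∞} (he : μ (Dp \ G) ≤ e) :
    μ {z ∈ D | ∃ i ≤ n, z * w i ∉ G} ≤ (n + 1) * e := by
  have h1 : {z ∈ D | ∃ i ≤ n, z * w i ∉ G}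
      ⊆ ⋃ i ∈ Finset.range (n + 1), (fun z => z * w i) ⁻¹' (Dp \ G) := by
    rintro z ⟨hz, i, hi, hG⟩
    simp only [Set.mem_iUnion, Finset.mem_range]
    exact ⟨i, Nat.lt_succ_of_le hi, hD i hi z hz, hG⟩
  calc μ {z ∈ D | ∃ i ≤ n, z * w i ∉ G}
      ≤ μ (⋃ i ∈ Finset.range (n + 1), (fun z => z * w i) ⁻¹' (Dp \ G)) := measure_mono h1
    _ ≤ ∑ i ∈ Finset.range (n + 1), μ ((fun z => z * w i) ⁻¹' (Dp \ G)) :=
        measure_biUnion_finset_le _ _
    _ ≤ ∑ _i ∈ Finset.range (n + 1), e :=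
        Finset.sum_le_sum fun i _ => (hμ _ _).trans he
    _ = (n + 1) * e := by simp

/-- **LC**, measure form: the label is preserved by any product of boundedly many stable moves. -/
theorem LData.mu_sigma_ne_le {V Φ Lab Dir : Type*} [NormedAddCommGroup V]
    {Δ : LData S V Φ Lab Dir} {σ : S → Lab} {J : ℕ} {m d : ℝ} (hd : d < m)
    {μ : Measure S} (hμ : RI μ) {D Dp G : Set S} (hG : ∀ z ∈ G, Δ.Good σ J m z)
    (gs : List S) (hgs : ∀ g ∈ gs, Δ.Stable J d g)
    (hD : ∀ i ≤ gs.length, ∀ z ∈ D, z * (gs.take i).prod ∈ Dp) {e : ℝ≥0∞}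
    (he : μ (Dp \ G) ≤ e) :
    μ {z ∈ D | σ (z * gs.prod) ≠ σ z} ≤ (gs.length + 1) * e := by
  refine le_trans (measure_mono ?_) (mu_prefix_le hμ (fun i => (gs.take i).prod) hD he)
  rintro z ⟨hz, hne⟩
  refine ⟨hz, ?_⟩
  by_contra hcon
  push Not at hcon
  exact hne (LData.sigma_eq_list gs hgs (fun i hi => hG _ (hcon i hi)) hd).symm

/-! ### STRAIGHT -/

omit [MeasurableSpace S] in
open Classical in
/-- **STRAIGHT**, deterministic form. -/
theorem straight_det {V H Lab : Type*} [NormedAddCommGroup V] [AddCommGroup H]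
    (f : S → V) (θ : S → H) (hθ : ∀ x y, θ (x * y) = θ x + θ y) (hθ1 : θ 1 = 0)
    (T : Lab → H →+ V) (σ : S → Lab) (D0 : Set S) (l : S → ℝ) (L K ρ ε1 : ℝ)
    (hf : ∀ z g, ‖f (z * g) - f z‖ ≤ L * l g) (hT : ∀ s g, ‖T s (θ g)‖ ≤ K * l g)
    (hL : 0 ≤ L) (hK : 0 ≤ K)
    (lin : ∀ x u, x ∈ D0 → x * u ∈ D0 → l u ≤ ρ → ‖f (x * u) - f x - T (σ x) (θ u)‖ ≤ ε1)
    (w : ℕ → S) (hw0 : w 0 = 1) (hw : ∀ i, l ((w i)⁻¹ * w (i + 1)) ≤ ρ) (z : S) (N : ℕ)
    (hε1 : 0 ≤ ε1) :
    ‖f (z * w N) - f z - T (σ z) (θ (w N))‖ ≤ N * ε1 + (L + K) * ρ *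
      (((Finset.range N).filter fun i => z * w i ∉ D0 ∨ z * w (i + 1) ∉ D0 ∨
        σ (z * w i) ≠ σ z).card : ℕ) := by
  induction N with
  | zero => simp [hw0, hθ1]
  | succ N ih =>
    set u : S := (w N)⁻¹ * w (N + 1) with hu
    have e1 : w (N + 1) = w N * u := by rw [hu]; group
    have e2 : f (z * w (N + 1)) - f z - T (σ z) (θ (w (N + 1)))
        = (f (z * w N) - f z - T (σ z) (θ (w N))) +
          (f (z * w N * u) - f (z * w N) - T (σ z) (θ u)) := by
      rw [e1, hθ, map_add, ← mul_assoc]; abel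
    have hul : l u ≤ ρ := hw N
    have hbad : ‖f (z * w N * u) - f (z * w N) - T (σ z) (θ u)‖ ≤ (L + K) * ρ := by
      calc ‖f (z * w N * u) - f (z * w N) - T (σ z) (θ u)‖
          ≤ ‖f (z * w N * u) - f (z * w N)‖ + ‖T (σ z) (θ u)‖ := norm_sub_le _ _
        _ ≤ L * l u + K * l u := add_le_add (hf _ _) (hT _ _)
        _ ≤ L * ρ + K * ρ := add_le_add (mul_le_mul_of_nonneg_left hul hL)
            (mul_le_mul_of_nonneg_left hul hK)
        _ = (L + K) * ρ := by ring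
    rw [Finset.range_add_one, Finset.filter_insert]
    by_cases hb : z * w N ∉ D0 ∨ z * w (N + 1) ∉ D0 ∨ σ (z * w N) ≠ σ z
    · rw [if_pos hb, Finset.card_insert_of_notMem (by simp)]
      rw [e2]
      refine (norm_add_le _ _).trans ?_
      push_cast
      have : (0 : ℝ) ≤ ε1 := hε1
      nlinarith [ih, hbad]
    · rw [if_neg hb]
      push Not at hb
      have h1 := lin (z * w N) u hb.1 (by rw [mul_assoc, ← e1]; exact hb.2.1) hul
      rw [hb.2.2] at h1
      rw [e2]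
      refine (norm_add_le _ _).trans ?_
      push_cast
      linarith

open Classical in
/-- **STRAIGHT**, measure form.  `A i = {z ∈ D | z * w i ∉ D0}` and
`B i = {z ∈ D | σ (z * w i) ≠ σ z}` have measure at most `e`; then off a set of measure at most
`4 e / δ` one has straightness with error `N ε1 + (L + K) ρ (δ N + 1)`. -/
theorem mu_straight_le {V H Lab : Type*} [NormedAddCommGroup V] [AddCommGroup H]
    {μ : Measure S} (D : Set S)
    (f : S → V) (θ : S → H) (hθ : ∀ x y, θ (x * y) = θ x + θ y) (hθ1 : θ 1 = 0)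
    (T : Lab → H →+ V) (σ : S → Lab) (D0 : Set S) (l : S → ℝ) (L K ρ ε1 : ℝ)
    (hf : ∀ z g, ‖f (z * g) - f z‖ ≤ L * l g) (hT : ∀ s g, ‖T s (θ g)‖ ≤ K * l g)
    (hL : 0 ≤ L) (hK : 0 ≤ K) (hρ : 0 ≤ ρ)
    (lin : ∀ x u, x ∈ D0 → x * u ∈ D0 → l u ≤ ρ → ‖f (x * u) - f x - T (σ x) (θ u)‖ ≤ ε1)
    (hε1 : 0 ≤ ε1) (w : ℕ → S) (hw0 : w 0 = 1) (hw : ∀ i, l ((w i)⁻¹ * w (i + 1)) ≤ ρ)
    (N : ℕ) (e : ℝ≥0∞)
    (hA : ∀ i ≤ N, μ {z ∈ D | z * w i ∉ D0} ≤ e)
    (hB : ∀ i ≤ N, μ {z ∈ D | σ (z * w i) ≠ σ z} ≤ e) (M : ℕ) :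
    (M : ℝ≥0∞) * μ {z ∈ D | ∃ n ≤ N,
        n * ε1 + (L + K) * ρ * M < ‖f (z * w n) - f z - T (σ z) (θ (w n))‖}
      ≤ 3 * N * e := by
  set A : ℕ → Set S := fun i => {z ∈ D | z * w i ∉ D0 ∨ z * w (i + 1) ∉ D0 ∨
        σ (z * w i) ≠ σ z} with hAdef
  have hm := markov_count μ (Finset.range N) A M
  have hsum : ∑ i ∈ Finset.range N, μ (A i) ≤ ∑ _i ∈ Finset.range N, 3 * e := by
    refine Finset.sum_le_sum fun i hi => ?_
    rw [Finset.mem_range] at hi
    have hsub : A i ⊆ {z ∈ D | z * w i ∉ D0} ∪ ({z ∈ D | z * w (i + 1) ∉ D0} ∪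
        {z ∈ D | σ (z * w i) ≠ σ z}) := by
      rintro z ⟨hz, h | h | h⟩
      · exact Or.inl ⟨hz, h⟩
      · exact Or.inr (Or.inl ⟨hz, h⟩)
      · exact Or.inr (Or.inr ⟨hz, h⟩)
    calc μ (A i) ≤ μ _ := measure_mono hsub
      _ ≤ μ {z ∈ D | z * w i ∉ D0} + (μ {z ∈ D | z * w (i + 1) ∉ D0} +
        μ {z ∈ D | σ (z * w i) ≠ σ z}) :=
          (measure_union_le _ _).trans (add_le_add le_rfl (measure_union_le _ _))
      _ ≤ e + (e + e) := add_le_add (hA i hi.le) (add_le_add (hA (i + 1) hi) (hB i hi.le))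
      _ = 3 * e := by ring
  rw [Finset.sum_const, Finset.card_range, nsmul_eq_mul] at hsum
  have hsub : {z ∈ D | ∃ n ≤ N,
        n * ε1 + (L + K) * ρ * M < ‖f (z * w n) - f z - T (σ z) (θ (w n))‖}
      ⊆ {z | M ≤ ((Finset.range N).filter fun i => z ∈ A i).card} := by
    rintro z ⟨hz, n, hn, h⟩
    simp only [Set.mem_ofPred_eq]
    have hdet := straight_det f θ hθ hθ1 T σ D0 l L K ρ ε1 hf hT hL hK lin w hw0 hw z n hε1
    have hlt : (L + K) * ρ * M < (L + K) * ρ *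
      (((Finset.range n).filter fun i => z * w i ∉ D0 ∨ z * w (i + 1) ∉ D0 ∨
        σ (z * w i) ≠ σ z).card : ℕ) := by linarith
    have hpos : 0 ≤ (L + K) * ρ := mul_nonneg (add_nonneg hL hK) hρ
    have hlt2 := lt_of_mul_lt_mul_left hlt hpos
    have hlt3 : M < ((Finset.range n).filter fun i => z * w i ∉ D0 ∨ z * w (i + 1) ∉ D0 ∨
        σ (z * w i) ≠ σ z).card := by exact_mod_cast hlt2
    refine hlt3.le.trans (Finset.card_le_card ?_)
    intro i hi
    rw [Finset.mem_filter, Finset.mem_range] at hi ⊢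
    exact ⟨lt_of_lt_of_le hi.1 hn, hz, hi.2⟩
  calc (M : ℝ≥0∞) * μ {z ∈ D | ∃ n ≤ N,
        n * ε1 + (L + K) * ρ * M < ‖f (z * w n) - f z - T (σ z) (θ (w n))‖}
      ≤ M * μ {z | M ≤ ((Finset.range N).filter fun i => z ∈ A i).card} :=
        mul_le_mul_right (measure_mono hsub) _
    _ ≤ N * (3 * e) := by
        refine le_trans ?_ (hm.trans hsum)
        apply le_of_eq
        congr!
    _ = 3 * N * e := by ring

end Vale.P188.H654
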