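import Vale.Agent.P188.H654.Line

/-!
# P188, D-block: LC with closeness of the two lines only for most points
-/

noncomputable section

namespace Vale.P188.H654

open MeasureTheory Finset
open scoped ENNReal

namespace LData

variable {S V Φ Lab Dir : Type*} [Group S] [NormedAddCommGroup V] (Δ : LData S V Φ Lab Dir)
variable (σ : S → Lab) (J : ℕ) (m d : ℝ)

/-- the lines through `z` and `z * g` in direction `v` have `d`-close images at both ends -/
def NearAt (g : S) (v : Dir) (z : S) : Prop :=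
  ∀ b, |Δ.β b (Δ.f (z * g)) - Δ.β b (Δ.f z)| ≤ d ∧
    |Δ.β b (Δ.f (z * g * Δ.t v ^ J)) - Δ.β b (Δ.f (z * Δ.t v ^ J))| ≤ d

/-- for every direction or its opposite -/
def Near (g : S) (z : S) : Prop := ∀ v, Δ.NearAt J d g v z ∨ Δ.NearAt J d g (Δ.neg v) z

variable {Δ σ J m d}

theorem StableAt.near {g : S} {v : Dir} (hg : Δ.StableAt J d g v) (z : S) :
    Δ.NearAt J d g v z := by
  intro b
  refine ⟨(Δ.lipβ b _ _).trans ((mul_le_mul_of_nonneg_left (Δ.lipf z g) Δ.B_nonneg).trans hg.1),
    ?_⟩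
  have e : z * g * Δ.t v ^ J = z * Δ.t v ^ J * ((Δ.t v ^ J)⁻¹ * g * Δ.t v ^ J) := by group
  rw [e]
  exact (Δ.lipβ b _ _).trans ((mul_le_mul_of_nonneg_left (Δ.lipf _ _) Δ.B_nonneg).trans hg.2)

theorem Stable.near {g : S} (hg : Δ.Stable J d g) (z : S) : Δ.Near J d g z := fun v =>
  (hg v).imp (fun h => h.near z) (fun h => h.near z)

theorem P_eq_near {z g : S} {v : Dir} (hz : Δ.Mg σ J m z v) (hzg : Δ.Mg σ J m (z * g) v)
    (hg : Δ.NearAt J d g v z) (hd : d < m) : Δ.P v (σ z) = Δ.P v (σ (z * g)) := by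
  ext b
  have a0 := abs_le.1 (hg b).1
  have a1 := abs_le.1 (hg b).2
  constructor
  · intro hb
    by_contra hb'
    have e1 := (hz b).1 hb
    have e2 := (hzg b).2 hb'
    linarith [a0.1, a0.2, a1.1, a1.2]
  · intro hb
    by_contra hb'
    have e1 := (hz b).2 hb'
    have e2 := (hzg b).1 hb
    linarith [a0.1, a0.2, a1.1, a1.2]

/-- **LC**, deterministic form with `Near` -/
theorem sigma_eq_near {z g : S} (hz : Δ.Good σ J m z) (hzg : Δ.Good σ J m (z * g))
    (hg : Δ.Near J d g z) (hd : d < m) : σ z = σ (z * g) := by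
  apply Δ.P_inj
  intro v
  rcases hg v with h | h
  · exact P_eq_near (hz v) (hzg v) h hd
  · have := P_eq_near (hz (Δ.neg v)) (hzg (Δ.neg v)) h hd
    rw [Δ.P_neg, Δ.P_neg] at this
    exact compl_injective this

/-- **LC** along a list of moves -/
theorem sigma_eq_list_near {z : S} (gs : List S)
    (hgs : ∀ i < gs.length, Δ.Near J d (gs.getD i 1) (z * (gs.take i).prod))
    (hgood : ∀ i ≤ gs.length, Δ.Good σ J m (z * (gs.take i).prod)) (hd : d < m) :
    σ z = σ (z * gs.prod) := by
  induction gs generalizing z with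
  | nil => simp
  | cons g gs ih =>
    have h0 : Δ.Good σ J m z := by simpa using hgood 0 (Nat.zero_le _)
    have h1 : Δ.Good σ J m (z * g) := by
      have := hgood 1 (by simp)
      simpa using this
    have hg0 : Δ.Near J d g z := by
      have := hgs 0 (by simp)
      simpa using this
    have e1 := sigma_eq_near h0 h1 hg0 hd
    have e2 := ih (z := z * g) (by
      intro i hi
      have := hgs (i + 1) (by simpa using hi)
      rw [List.take_succ_cons, List.prod_cons, ← mul_assoc] at this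
      simpa using this) (by
      intro i hi
      have := hgood (i + 1) (by simpa using hi)
      rw [List.take_succ_cons, List.prod_cons, ← mul_assoc] at this
      exact this)
    rw [e1, e2, List.prod_cons, mul_assoc]

variable [MeasurableSpace S]

/-- **LC**, measure form: the label is preserved by any product of boundedly many moves `g`, each
of which is near (`NearAt v` or `NearAt (-v)`, for every `v`) at most points. -/
theorem mu_sigma_ne_le' {μ : Measure S} (hμ : RI μ) (hd : d < m) {D Dp G : Set S}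
    (hG : ∀ z ∈ G, Δ.Good σ J m z) (gs : List S) {e e' : ℝ≥0∞}
    (hgs : ∀ g ∈ gs, μ {z ∈ Dp | ¬ Δ.Near J d g z} ≤ e')
    (hD : ∀ i ≤ gs.length, ∀ z ∈ D, z * (gs.take i).prod ∈ Dp)
    (he : μ (Dp \ G) ≤ e) :
    μ {z ∈ D | σ (z * gs.prod) ≠ σ z} ≤ (gs.length + 1) * e + gs.length * e' := by
  classical
  have h1 := mu_prefix_le hμ (n := gs.length) (fun i => (gs.take i).prod) hD he
  have h2 : μ {z ∈ D | ∃ i < gs.length, ¬ Δ.Near J d (gs.getD i 1) (z * (gs.take i).prod)}
      ≤ gs.length * e' := by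
    have hsub : {z ∈ D | ∃ i < gs.length, ¬ Δ.Near J d (gs.getD i 1) (z * (gs.take i).prod)}
        ⊆ ⋃ i ∈ Finset.range gs.length, (fun z => z * (gs.take i).prod) ⁻¹'
          {z ∈ Dp | ¬ Δ.Near J d (gs.getD i 1) z} := by
      rintro z ⟨hz, i, hi, hn⟩
      simp only [Set.mem_iUnion, Finset.mem_range]
      exact ⟨i, hi, hD i hi.le z hz, hn⟩
    calc μ _ ≤ μ _ := measure_mono hsub
      _ ≤ ∑ i ∈ Finset.range gs.length, μ ((fun z => z * (gs.take i).prod) ⁻¹'
          {z ∈ Dp | ¬ Δ.Near J d (gs.getD i 1) z}) := measure_biUnion_finset_le _ _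
      _ ≤ ∑ _i ∈ Finset.range gs.length, e' := by
          refine Finset.sum_le_sum fun i hi => (hμ _ _).trans (hgs _ ?_)
          rw [Finset.mem_range] at hi
          rw [List.getD_eq_getElem _ _ hi]
          exact List.getElem_mem hi
      _ = gs.length * e' := by simp
  have hsub : {z ∈ D | σ (z * gs.prod) ≠ σ z} ⊆
      {z ∈ D | ∃ i ≤ gs.length, z * (gs.take i).prod ∉ G} ∪
      {z ∈ D | ∃ i < gs.length, ¬ Δ.Near J d (gs.getD i 1) (z * (gs.take i).prod)} := by
    rintro z ⟨hz, hne⟩
    by_contra hcon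
    rw [Set.mem_union, not_or] at hcon
    have c1 : ∀ i ≤ gs.length, z * (gs.take i).prod ∈ G := by
      intro i hi
      by_contra h
      exact hcon.1 ⟨hz, i, hi, h⟩
    have c2 : ∀ i < gs.length, Δ.Near J d (gs.getD i 1) (z * (gs.take i).prod) := by
      intro i hi
      by_contra h
      exact hcon.2 ⟨hz, i, hi, h⟩
    exact hne (sigma_eq_list_near gs c2 (fun i hi => hG _ (c1 i hi)) hd).symm
  calc μ {z ∈ D | σ (z * gs.prod) ≠ σ z} ≤ μ _ := measure_mono hsub
    _ ≤ _ := (measure_union_le _ _).trans (add_le_add h1 h2)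

end LData

end Vale.P188.H654
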