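import Mathlib

/-!
# P188, block Z1.c: window rigidity

`E` Euclidean, `α i` spanning, `m i > 0`, `∑ m i • α i = 0`.  A `1`-Lipschitz map
`φ : closedBall 0 R → E` such that for every ball `closedBall w r` inside and every `i`
the functional `⟪α i, ·⟫` grows on `φ (closedBall w r)` by at least `r * ‖α i‖`
is an affine isometry.
-/

noncomputable section

namespace Vale.P188.H654

open scoped RealInnerProductSpace
open Metric

variable {E : Type*} [NormedAddCommGroup E] [InnerProductSpace ℝ E]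

/-- equality in Cauchy-Schwarz with a norm bound -/
theorem eq_smul_of_inner_ge {a v : E} {r : ℝ} (hr : 0 ≤ r) (ha : a ≠ 0)
    (hv : ‖v‖ ≤ r) (h : r * ‖a‖ ≤ ⟪a, v⟫) : v = (r / ‖a‖) • a := by
  have hna : 0 < ‖a‖ := norm_pos_iff.mpr ha
  have hcs : ⟪a, v⟫ ≤ ‖a‖ * ‖v‖ := real_inner_le_norm a v
  have key : ‖v - (r / ‖a‖) • a‖ ^ 2 ≤ 0 := by
    rw [norm_sub_sq_real, inner_smul_right, real_inner_comm, norm_smul, Real.norm_eq_abs,
      abs_of_nonneg (by positivity)]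
    have e1 : r / ‖a‖ * ‖a‖ = r := by field_simp
    rw [e1]
    have e2 : r / ‖a‖ * ⟪a, v⟫ ≥ r * r := by
      have : r / ‖a‖ * ⟪a, v⟫ ≥ r / ‖a‖ * (r * ‖a‖) :=
        mul_le_mul_of_nonneg_left h (by positivity)
      calc r / ‖a‖ * ⟪a, v⟫ ≥ r / ‖a‖ * (r * ‖a‖) := this
        _ = r * r := by field_simp
    have e3 : ‖v‖ ^ 2 ≤ r ^ 2 := by
      have := norm_nonneg v
      nlinarith
    nlinarith
  have h0 : ‖v - (r / ‖a‖) • a‖ = 0 := by
    have := sq_nonneg ‖v - (r / ‖a‖) • a‖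
    have h2 : ‖v - (r / ‖a‖) • a‖ ^ 2 = 0 := le_antisymm key this
    simpa using h2
  have := norm_eq_zero.mp h0
  exact sub_eq_zero.mp this

/-- second order expansion of the norm -/
theorem norm_sub_le_expand {u e : E} {r : ℝ} (hr : 0 < r) (he : ‖e‖ = r) :
    ‖u - e‖ ≤ r - ⟪u, e⟫ / r + ‖u‖ ^ 2 / (2 * r) := by
  have h1 : ‖u - e‖ ^ 2 = ‖u‖ ^ 2 - 2 * ⟪u, e⟫ + r ^ 2 := by
    rw [norm_sub_sq_real, he]
  have h2 : ⟪u, e⟫ ≤ ‖u‖ * r := by
    have := real_inner_le_norm u e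
    rwa [he] at this
  have h3 : 0 ≤ r - ⟪u, e⟫ / r + ‖u‖ ^ 2 / (2 * r) := by
    have : r - ⟪u, e⟫ / r + ‖u‖ ^ 2 / (2 * r)
        = (2 * r ^ 2 - 2 * ⟪u, e⟫ + ‖u‖ ^ 2) / (2 * r) := by
      field_simp
    rw [this]
    apply div_nonneg _ (by positivity)
    nlinarith [sq_nonneg (r - ‖u‖), sq_nonneg r]
  have h4 : ‖u - e‖ ^ 2 ≤ (r - ⟪u, e⟫ / r + ‖u‖ ^ 2 / (2 * r)) ^ 2 := by
    rw [h1]
    have e5 : (r - ⟪u, e⟫ / r + ‖u‖ ^ 2 / (2 * r)) ^ 2
        = ‖u‖ ^ 2 - 2 * ⟪u, e⟫ + r ^ 2 + ((‖u‖ ^ 2 - 2 * ⟪u, e⟫) / (2 * r)) ^ 2 := by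
      field_simp
      ring
    rw [e5]
    nlinarith [sq_nonneg ((‖u‖ ^ 2 - 2 * ⟪u, e⟫) / (2 * r))]
  exact (abs_le_of_sq_le_sq' h4 h3).2


/-- the standing data: spanning vectors with a positive relation -/
structure Wts (E : Type*) [NormedAddCommGroup E] [InnerProductSpace ℝ E] (ι : Type*) [Fintype ι] where
  α : ι → E
  m : ι → ℝ
  ne : ∀ i, α i ≠ 0
  pos : ∀ i, 0 < m i
  sum : ∑ i, m i • α i = 0
  span : Submodule.span ℝ (Set.range α) = ⊤

variable {ι : Type*} [Fintype ι] (A : Wts E ι)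

/-- the hypothesis on `φ` -/
structure Rig (A : Wts E ι) (R : ℝ) (φ : E → E) : Prop where
  lip : ∀ x ∈ closedBall (0 : E) R, ∀ y ∈ closedBall (0 : E) R, ‖φ x - φ y‖ ≤ ‖x - y‖
  cap : ∀ (w : E) (r : ℝ), 0 ≤ r → closedBall w r ⊆ closedBall (0 : E) R → ∀ i,
    ∃ w' ∈ closedBall w r, r * ‖A.α i‖ ≤ ⟪A.α i, φ w' - φ w⟫

variable {A} {R : ℝ} {φ : E → E}

omit [InnerProductSpace ℝ E] in
theorem sub_ball {w : E} {r : ℝ} (h : r ≤ R - ‖w‖) : closedBall w r ⊆ closedBall (0 : E) R := by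
  intro x hx
  rw [mem_closedBall, dist_eq_norm] at hx
  rw [mem_closedBall, dist_zero_right]
  have : ‖x‖ ≤ ‖x - w‖ + ‖w‖ := by simpa using norm_add_le (x - w) w
  linarith

theorem Rig.ray (h : Rig A R φ) {w : E} {r : ℝ} (hr : 0 ≤ r) (hw : r ≤ R - ‖w‖) (i : ι) :
    ∃ e : E, ‖e‖ = r ∧ φ (w + e) = φ w + (r / ‖A.α i‖) • A.α i := by
  obtain ⟨w', hw', h1⟩ := h.cap w r hr (sub_ball hw) i
  have hna : 0 < ‖A.α i‖ := norm_pos_iff.mpr (A.ne i)
  have hwR : w ∈ closedBall (0 : E) R := sub_ball hw (mem_closedBall_self hr)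
  have hw'R : w' ∈ closedBall (0 : E) R := sub_ball hw hw'
  have h2 : ‖φ w' - φ w‖ ≤ ‖w' - w‖ := h.lip _ hw'R _ hwR
  have h3 : ‖w' - w‖ ≤ r := by rwa [mem_closedBall, dist_eq_norm] at hw'
  have h4 := eq_smul_of_inner_ge hr (A.ne i) (h2.trans h3) h1
  refine ⟨w' - w, ?_, ?_⟩
  · apply le_antisymm h3
    have : ‖φ w' - φ w‖ = r := by
      rw [h4, norm_smul, Real.norm_eq_abs, abs_of_nonneg (by positivity)]
      field_simp
    linarith
  · rw [add_sub_cancel, ← h4]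
    abel

/-- the lower support inequality -/
theorem Rig.lower (h : Rig A R φ) {w : E} {r : ℝ} (hr : 0 < r) (hw : r ≤ R - ‖w‖) (i : ι) :
    ∃ e : E, ‖e‖ = ‖A.α i‖ ∧ ∀ x ∈ closedBall (0 : E) R,
      ⟪e, x - w⟫ - ‖A.α i‖ * (‖x - w‖ ^ 2 / (2 * r)) ≤ ⟪A.α i, φ x - φ w⟫ := by
  obtain ⟨e, he, h1⟩ := h.ray hr.le hw i
  have hna : 0 < ‖A.α i‖ := norm_pos_iff.mpr (A.ne i)
  refine ⟨(‖A.α i‖ / r) • e, ?_, fun x hx => ?_⟩
  · rw [norm_smul, he, Real.norm_eq_abs, abs_of_nonneg (by positivity)]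
    field_simp
  · have hmem : w + e ∈ closedBall (0 : E) R := by
      apply sub_ball hw
      rw [mem_closedBall, dist_eq_norm, add_sub_cancel_left, he]
    have h2 : ‖φ (w + e) - φ x‖ ≤ ‖(x - w) - e‖ := by
      have := h.lip _ hmem _ hx
      refine this.trans (le_of_eq ?_)
      rw [← norm_neg]
      congr 1
      abel
    have h3 := norm_sub_le_expand (u := x - w) hr he
    have h4 : ⟪A.α i, φ x - φ w⟫ = ⟪A.α i, φ (w + e) - φ w⟫ - ⟪A.α i, φ (w + e) - φ x⟫ := by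
      rw [← inner_sub_right]
      congr 1
      abel
    have h5 : ⟪A.α i, φ (w + e) - φ w⟫ = r * ‖A.α i‖ := by
      rw [h1, add_sub_cancel_left, inner_smul_right, real_inner_self_eq_norm_sq]
      field_simp
    have h6 : ⟪A.α i, φ (w + e) - φ x⟫ ≤ ‖A.α i‖ * ‖(x - w) - e‖ :=
      (real_inner_le_norm _ _).trans (mul_le_mul_of_nonneg_left h2 hna.le)
    have h7 : ‖A.α i‖ * ‖(x - w) - e‖ ≤
        ‖A.α i‖ * (r - ⟪x - w, e⟫ / r + ‖x - w‖ ^ 2 / (2 * r)) :=
      mul_le_mul_of_nonneg_left h3 hna.le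
    rw [h4, h5, inner_smul_left, real_inner_comm]
    simp only [conj_trivial]
    have h8 : ‖A.α i‖ / r * ⟪x - w, e⟫ = ‖A.α i‖ * (⟪x - w, e⟫ / r) := by ring
    rw [h8]
    nlinarith

theorem sum_inner_zero (A : Wts E ι) (v : E) : ∑ i, A.m i * ⟪A.α i, v⟫ = 0 := by
  have : ⟪∑ i, A.m i • A.α i, v⟫ = 0 := by rw [A.sum, inner_zero_left]
  rw [sum_inner] at this
  simpa [inner_smul_left] using this

/-- a linear functional bounded above by a quadratic near zero vanishes -/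
theorem lin_zero_of_quad {f : E} {C δ : ℝ} (hδ : 0 < δ)
    (h : ∀ u : E, ‖u‖ ≤ δ → ⟪f, u⟫ ≤ C * ‖u‖ ^ 2) : f = 0 := by
  by_contra hf
  have hn : 0 < ‖f‖ := norm_pos_iff.mpr hf
  obtain ⟨C', hC', hCC⟩ : ∃ C' : ℝ, 0 < C' ∧ C ≤ C' := ⟨max C 1, by positivity, le_max_left _ _⟩
  set t : ℝ := min (δ / ‖f‖) (1 / (2 * C')) with ht
  have htpos : 0 < t := by
    rw [ht]
    exact lt_min (by positivity) (by positivity)
  have h1 : ‖t • f‖ ≤ δ := by
    rw [norm_smul, Real.norm_eq_abs, abs_of_pos htpos]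
    calc t * ‖f‖ ≤ δ / ‖f‖ * ‖f‖ := mul_le_mul_of_nonneg_right (min_le_left _ _) hn.le
      _ = δ := by field_simp
  have h2 := h _ h1
  rw [inner_smul_right, real_inner_self_eq_norm_sq, norm_smul, Real.norm_eq_abs,
    abs_of_pos htpos] at h2
  have h3 : t * (2 * C') ≤ 1 := by
    calc t * (2 * C') ≤ 1 / (2 * C') * (2 * C') :=
          mul_le_mul_of_nonneg_right (min_le_right _ _) (by positivity)
      _ = 1 := by field_simp
  have h4 : C * (t * ‖f‖) ^ 2 ≤ C' * (t * ‖f‖) ^ 2 :=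
    mul_le_mul_of_nonneg_right hCC (sq_nonneg _)
  have h5 : t * ‖f‖ ^ 2 ≤ C' * (t * ‖f‖) ^ 2 := h2.trans h4
  have h6 : 0 < t * ‖f‖ ^ 2 := by positivity
  nlinarith [mul_le_mul_of_nonneg_right h3 h6.le]

/-- constant in the quadratic estimate -/
def Wts.K (A : Wts E ι) : ℝ := (∑ j, A.m j * ‖A.α j‖) / 2

theorem Wts.K_nonneg (A : Wts E ι) : 0 ≤ A.K := by
  unfold Wts.K
  have : 0 ≤ ∑ j, A.m j * ‖A.α j‖ :=
    Finset.sum_nonneg fun j _ => mul_nonneg (A.pos j).le (norm_nonneg _)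
  linarith

/-- differentiability with quadratic remainder -/
theorem Rig.diff (h : Rig A R φ) {w : E} {r : ℝ} (hr : 0 < r) (hw : r ≤ R - ‖w‖) :
    ∃ e : ι → E, (∀ i, ‖e i‖ = ‖A.α i‖) ∧ ∀ i, ∀ x ∈ closedBall (0 : E) R,
      |⟪A.α i, φ x - φ w⟫ - ⟪e i, x - w⟫| ≤ (A.K / A.m i) * (‖x - w‖ ^ 2 / r) := by
  choose e he hle using fun i => h.lower hr hw i
  have hlow : ∀ x ∈ closedBall (0 : E) R, ∀ i,
      A.m i * ⟪e i, x - w⟫ - A.m i * ‖A.α i‖ * (‖x - w‖ ^ 2 / (2 * r))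
        ≤ A.m i * ⟪A.α i, φ x - φ w⟫ := by
    intro x hx i
    have := mul_le_mul_of_nonneg_left (hle i x hx) (A.pos i).le
    linarith
  -- the sum of the slopes vanishes
  have hsum : ∑ i, A.m i • e i = 0 := by
    apply lin_zero_of_quad (C := A.K / r) hr
    intro u hu
    have hx : w + u ∈ closedBall (0 : E) R := by
      apply sub_ball hw
      rw [mem_closedBall, dist_eq_norm, add_sub_cancel_left]
      exact hu
    have h1 := Finset.sum_le_sum fun i (_ : i ∈ Finset.univ) => hlow _ hx i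
    rw [sum_inner_zero, Finset.sum_sub_distrib, ← Finset.sum_mul, add_sub_cancel_left] at h1
    rw [sum_inner]
    simp only [inner_smul_left, conj_trivial]
    have h2 : (∑ i, A.m i * ‖A.α i‖) * (‖u‖ ^ 2 / (2 * r)) = A.K / r * ‖u‖ ^ 2 := by
      unfold Wts.K
      field_simp
    linarith
  refine ⟨e, he, fun i x hx => ?_⟩
  have hmi := A.pos i
  have hsum' : ∑ j, A.m j * ⟪e j, x - w⟫ = 0 := by
    have : ⟪∑ i, A.m i • e i, x - w⟫ = 0 := by rw [hsum, inner_zero_left]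
    rw [sum_inner] at this
    simpa [inner_smul_left] using this
  set q : ℝ := ‖x - w‖ ^ 2 / (2 * r) with hq
  have hq0 : 0 ≤ q := by positivity
  set g : ι → ℝ := fun j => A.m j * ⟪A.α j, φ x - φ w⟫ - A.m j * ⟪e j, x - w⟫
    + A.m j * ‖A.α j‖ * q with hg
  have hg0 : ∀ j, 0 ≤ g j := fun j => by
    have := hlow x hx j
    simp only [hg]
    linarith
  have hgs : ∑ j, g j = 2 * A.K * q := by
    simp only [hg]
    rw [Finset.sum_add_distrib, Finset.sum_sub_distrib, sum_inner_zero, hsum', ← Finset.sum_mul]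
    unfold Wts.K
    ring
  have hgi : g i ≤ 2 * A.K * q := by
    rw [← hgs]
    exact Finset.single_le_sum (fun j _ => hg0 j) (Finset.mem_univ i)
  have hq2 : 2 * A.K * q = A.K * (‖x - w‖ ^ 2 / r) := by
    rw [hq]
    field_simp
  have hle1 : A.m i * ‖A.α i‖ * q ≤ 2 * A.K * q := by
    apply mul_le_mul_of_nonneg_right _ hq0
    unfold Wts.K
    have := Finset.single_le_sum (f := fun j => A.m j * ‖A.α j‖)
      (fun j _ => mul_nonneg (A.pos j).le (norm_nonneg _)) (Finset.mem_univ i)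
    linarith
  have key : |A.m i * (⟪A.α i, φ x - φ w⟫ - ⟪e i, x - w⟫)| ≤ A.K * (‖x - w‖ ^ 2 / r) := by
    rw [abs_le]
    have e1 : A.m i * (⟪A.α i, φ x - φ w⟫ - ⟪e i, x - w⟫) = g i - A.m i * ‖A.α i‖ * q := by
      simp only [hg]
      ring
    rw [e1]
    constructor
    · have := hg0 i
      linarith
    · have : 0 ≤ A.m i * ‖A.α i‖ * q := by positivity
      linarith
  rw [abs_mul, abs_of_pos hmi] at key
  rw [div_mul_eq_mul_div, le_div_iff₀ hmi]
  linarith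

/-! ### the derivative of `φ` -/

variable [FiniteDimensional ℝ E]

/-- coordinates -/
def Wts.coord (A : Wts E ι) : E →L[ℝ] (ι → ℝ) :=
  ContinuousLinearMap.pi fun i => innerSL ℝ (A.α i)

omit [FiniteDimensional ℝ E] in
@[simp] theorem Wts.coord_apply (A : Wts E ι) (x : E) (i : ι) : A.coord x i = ⟪A.α i, x⟫ := rfl

omit [FiniteDimensional ℝ E] in
theorem Wts.eq_of_inner (A : Wts E ι) {x y : E} (h : ∀ i, ⟪A.α i, x⟫ = ⟪A.α i, y⟫) : x = y := by
  have h1 : ∀ v : E, v ∈ Submodule.span ℝ (Set.range A.α) → ⟪v, x - y⟫ = 0 := by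
    intro v hv
    induction hv using Submodule.span_induction with
    | mem v hv =>
      obtain ⟨i, rfl⟩ := hv
      rw [inner_sub_right, h i, sub_self]
    | zero => exact inner_zero_left _
    | add a b _ _ ha hb => rw [inner_add_left, ha, hb, add_zero]
    | smul c a _ ha => rw [inner_smul_left, ha, mul_zero]
  have h2 := h1 (x - y) (by rw [A.span]; trivial)
  exact sub_eq_zero.mp (inner_self_eq_zero.mp h2)

omit [FiniteDimensional ℝ E] in
theorem Wts.coord_injective (A : Wts E ι) : Function.Injective A.coord := by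
  intro x y hxy
  apply A.eq_of_inner
  intro i
  have := congrFun hxy i
  simpa using this

/-- a constant controlling the norm by the coordinates -/
theorem Wts.exists_norm_le (A : Wts E ι) : ∃ C : ℝ, 0 < C ∧ ∀ x : E, ∀ B : ℝ, 0 ≤ B →
    (∀ i, |⟪A.α i, x⟫| ≤ B) → ‖x‖ ≤ C * B := by
  obtain ⟨K, hK, hK'⟩ := A.coord.toLinearMap.exists_antilipschitzWith
    (LinearMap.ker_eq_bot.mpr A.coord_injective)
  refine ⟨K, by exact_mod_cast hK, fun x B hB h => ?_⟩
  have h1 := hK'.le_mul_dist x 0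
  rw [dist_zero_right, map_zero, dist_zero_right] at h1
  refine h1.trans (mul_le_mul_of_nonneg_left ?_ K.coe_nonneg)
  rw [pi_norm_le_iff_of_nonneg hB]
  intro i
  exact h i

/-- existence of the orthogonal derivative, with quadratic remainder and uniform constant -/
theorem Wts.exists_quad (A : Wts E ι) : ∃ C : ℝ, 0 < C ∧ ∀ {R : ℝ} {φ : E → E}, Rig A R φ →
    ∀ {w : E} {r : ℝ}, 0 < r → r ≤ R - ‖w‖ → ∃ D : E →L[ℝ] E,
      (∀ x ∈ closedBall (0 : E) R, ‖φ x - φ w - D (x - w)‖ ≤ C * (‖x - w‖ ^ 2 / r)) ∧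
      (∀ i, ‖D.adjoint (A.α i)‖ = ‖A.α i‖) := by
  classical
  obtain ⟨C₀, hC₀, hC₀'⟩ := A.exists_norm_le
  obtain ⟨M, hM, hMi⟩ : ∃ M : ℝ, 0 < M ∧ ∀ i, A.K / A.m i ≤ M := by
    refine ⟨1 + ∑ i, A.K / A.m i, ?_, fun i => ?_⟩
    · have : 0 ≤ ∑ i, A.K / A.m i :=
        Finset.sum_nonneg fun i _ => div_nonneg A.K_nonneg (A.pos i).le
      linarith
    · have := Finset.single_le_sum (f := fun i => A.K / A.m i)
        (fun i _ => div_nonneg A.K_nonneg (A.pos i).le) (Finset.mem_univ i)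
      linarith
  refine ⟨C₀ * M, by positivity, ?_⟩
  intro R φ h w r hr hw
  obtain ⟨e, he, hq⟩ := h.diff hr hw
  -- a left inverse of the coordinate map
  obtain ⟨P, hP⟩ := A.coord.toLinearMap.exists_leftInverse_of_injective
    (LinearMap.ker_eq_bot.mpr A.coord_injective)
  -- the slopes satisfy the linear relations of the `α i`
  set Le : E →L[ℝ] (ι → ℝ) := ContinuousLinearMap.pi fun i => innerSL ℝ (e i) with hLe
  have hLe' : ∀ u i, Le u i = ⟪e i, u⟫ := fun u i => rfl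
  -- for every `u`, `Le u` is in the range of `A.coord`
  have hrange : ∀ u : E, Le u ∈ LinearMap.range A.coord.toLinearMap := by
    intro u
    have hcl : IsClosed (LinearMap.range A.coord.toLinearMap : Set (ι → ℝ)) :=
      Submodule.closed_of_finiteDimensional _
    have hseq : ∀ᶠ t : ℝ in nhdsWithin 0 (Set.Ioi 0),
        A.coord (t⁻¹ • (φ (w + t • u) - φ w)) ∈
          (LinearMap.range A.coord.toLinearMap : Set (ι → ℝ)) :=
      Filter.Eventually.of_forall fun t => ⟨_, rfl⟩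
    refine hcl.mem_of_tendsto (f := fun t : ℝ => A.coord (t⁻¹ • (φ (w + t • u) - φ w)))
      (b := nhdsWithin 0 (Set.Ioi 0)) ?_ hseq
    rw [tendsto_pi_nhds]
    intro i
    rw [Metric.tendsto_nhdsWithin_nhds]
    intro ε hε
    refine ⟨min (r / (‖u‖ + 1)) (ε * r / (2 * M * (‖u‖ + 1) ^ 2)), by positivity, ?_⟩
    intro t ht hdt
    have ht0 : 0 < t := ht
    rw [dist_zero_right, Real.norm_eq_abs, abs_of_pos ht0] at hdt
    have hu1 : 0 < ‖u‖ + 1 := by positivity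
    have ht1 : t * (‖u‖ + 1) < r := by
      have := hdt.trans_le (min_le_left _ _)
      rwa [lt_div_iff₀ hu1] at this
    have ht2 : t * (2 * M * (‖u‖ + 1) ^ 2) < ε * r := by
      have := hdt.trans_le (min_le_right _ _)
      rwa [lt_div_iff₀ (by positivity)] at this
    have hx : w + t • u ∈ closedBall (0 : E) R := by
      apply sub_ball hw
      rw [mem_closedBall, dist_eq_norm, add_sub_cancel_left, norm_smul, Real.norm_eq_abs,
        abs_of_pos ht0]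
      nlinarith [norm_nonneg u]
    have h1 := hq i _ hx
    rw [add_sub_cancel_left] at h1
    rw [Wts.coord_apply, hLe', dist_eq_norm, Real.norm_eq_abs, inner_smul_right]
    rw [inner_smul_right, norm_smul, Real.norm_eq_abs, abs_of_pos ht0] at h1
    have h2 : |t⁻¹ * ⟪A.α i, φ (w + t • u) - φ w⟫ - ⟪e i, u⟫|
        = t⁻¹ * |⟪A.α i, φ (w + t • u) - φ w⟫ - t * ⟪e i, u⟫| := by
      rw [← abs_of_pos (inv_pos.mpr ht0), ← abs_mul, abs_of_pos (inv_pos.mpr ht0)]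
      congr 1
      field_simp
    rw [h2]
    have h3 : t⁻¹ * |⟪A.α i, φ (w + t • u) - φ w⟫ - t * ⟪e i, u⟫|
        ≤ t⁻¹ * (M * ((t * ‖u‖) ^ 2 / r)) := by
      apply mul_le_mul_of_nonneg_left _ (inv_pos.mpr ht0).le
      refine h1.trans (mul_le_mul_of_nonneg_right (hMi i) (by positivity))
    refine lt_of_le_of_lt h3 ?_
    have h4 : t⁻¹ * (M * ((t * ‖u‖) ^ 2 / r)) = t * M * ‖u‖ ^ 2 / r := by
      field_simp
    rw [h4, div_lt_iff₀ hr]
    have h5 : t * M * ‖u‖ ^ 2 ≤ t * M * (‖u‖ + 1) ^ 2 := by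
      apply mul_le_mul_of_nonneg_left _ (by positivity)
      have := norm_nonneg u
      nlinarith
    nlinarith [mul_pos (mul_pos ht0 hM) (pow_pos hu1 2)]
  set D : E →L[ℝ] E := (LinearMap.toContinuousLinearMap P).comp Le with hD
  have hDi : ∀ u i, ⟪A.α i, D u⟫ = ⟪e i, u⟫ := by
    intro u i
    obtain ⟨v, hv⟩ := hrange u
    have h1 : D u = v := by
      show P (Le u) = v
      rw [← hv]
      exact LinearMap.congr_fun hP v
    rw [h1, ← hLe', ← hv]
    rfl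
  refine ⟨D, fun x hx => ?_, fun i => ?_⟩
  · rw [mul_assoc]
    apply hC₀' _ _ (by positivity)
    intro i
    rw [inner_sub_right, hDi]
    exact (hq i x hx).trans (mul_le_mul_of_nonneg_right (hMi i) (by positivity))
  · have : D.adjoint (A.α i) = e i := by
      apply ext_inner_right ℝ
      intro u
      rw [ContinuousLinearMap.adjoint_inner_left, hDi]
    rw [this, he]

end Vale.P188.H654
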