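import Vale.Agent.P188.H654.Rigid

/-!
# P188, block Z1.c: window rigidity, second part: `φ` is an affine isometry
-/

noncomputable section

namespace Vale.P188.H654

open scoped RealInnerProductSpace Topology
open Metric Filter

variable {E : Type*} [NormedAddCommGroup E] [InnerProductSpace ℝ E] [FiniteDimensional ℝ E]
variable {ι : Type*} [Fintype ι] {A : Wts E ι} {R : ℝ} {φ : E → E}

/-- `D` is an orthogonal derivative of `φ` at `w`, with quadratic remainder -/
structure ODer (R : ℝ) (φ : E → E) (w : E) (C : ℝ) (D : E →L[ℝ] E) : Prop where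
  rem : ∀ x ∈ closedBall (0 : E) R, ‖φ x - φ w - D (x - w)‖ ≤ C * ‖x - w‖ ^ 2
  iso : ∀ u, ‖D u‖ = ‖u‖

theorem ODer.surj {w : E} {C : ℝ} {D : E →L[ℝ] E} (h : ODer R φ w C D) (v : E) :
    ∃ u, D u = v ∧ ‖u‖ = ‖v‖ := by
  have hinj : Function.Injective D.toLinearMap := by
    intro x y hxy
    have h1 : D (x - y) = 0 := by
      rw [map_sub]
      exact sub_eq_zero.mpr hxy
    have h2 := h.iso (x - y)
    rw [h1, norm_zero] at h2
    exact sub_eq_zero.mp (norm_eq_zero.mp h2.symm)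
  obtain ⟨u, hu⟩ := LinearMap.injective_iff_surjective.mp hinj v
  exact ⟨u, hu, by rw [← h.iso u]; exact congrArg _ hu⟩

theorem Wts.exists_oder (A : Wts E ι) : ∃ C : ℝ, 0 < C ∧ ∀ {R : ℝ} {φ : E → E}, Rig A R φ →
    ∀ {w : E} {r : ℝ}, 0 < r → r ≤ R - ‖w‖ → ∃ D : E →L[ℝ] E, ODer R φ w (C / r) D := by
  obtain ⟨C, hC, hq⟩ := A.exists_quad
  refine ⟨C, hC, ?_⟩
  intro R φ h w r hr hw
  obtain ⟨D, hD, hDa⟩ := hq h hr hw
  have hrem : ∀ x ∈ closedBall (0 : E) R, ‖φ x - φ w - D (x - w)‖ ≤ C / r * ‖x - w‖ ^ 2 := by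
    intro x hx
    refine (hD x hx).trans (le_of_eq ?_)
    ring
  refine ⟨D, hrem, ?_⟩
  have hwR : w ∈ closedBall (0 : E) R := sub_ball hw (mem_closedBall_self hr.le)
  -- norm at most one
  have hle : ∀ u, ‖D u‖ ≤ ‖u‖ := by
    intro u
    apply le_of_forall_pos_le_add
    intro ε hε
    have hu1 : 0 < ‖u‖ + 1 := by positivity
    set t : ℝ := min (r / (‖u‖ + 1)) (ε * r / (C * (‖u‖ + 1) ^ 2)) with ht
    have ht0 : 0 < t := lt_min (by positivity) (by positivity)
    have ht1 : t * (‖u‖ + 1) ≤ r := by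
      rw [← le_div_iff₀ hu1]
      exact min_le_left _ _
    have ht2 : t * (C * (‖u‖ + 1) ^ 2) ≤ ε * r := by
      rw [← le_div_iff₀ (by positivity)]
      exact min_le_right _ _
    have hx : w + t • u ∈ closedBall (0 : E) R := by
      apply sub_ball hw
      rw [mem_closedBall, dist_eq_norm, add_sub_cancel_left, norm_smul, Real.norm_eq_abs,
        abs_of_pos ht0]
      nlinarith [norm_nonneg u]
    have h1 := hrem _ hx
    have h2 := h.lip _ hx _ hwR
    rw [add_sub_cancel_left, map_smul, norm_smul, Real.norm_eq_abs, abs_of_pos ht0] at h1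
    rw [add_sub_cancel_left, norm_smul, Real.norm_eq_abs, abs_of_pos ht0] at h2
    have h3 : ‖t • D u‖ ≤ ‖φ (w + t • u) - φ w‖ + ‖φ (w + t • u) - φ w - t • D u‖ := by
      have := norm_sub_le (φ (w + t • u) - φ w) (φ (w + t • u) - φ w - t • D u)
      rwa [sub_sub_cancel] at this
    rw [norm_smul, Real.norm_eq_abs, abs_of_pos ht0] at h3
    have h4 : t * ‖D u‖ ≤ t * ‖u‖ + C / r * (t * ‖u‖) ^ 2 := by linarith
    have h5 : C / r * (t * ‖u‖) ^ 2 ≤ t * ε := by
      have h6 : C / r * (t * ‖u‖) ^ 2 = t * (t * (C * ‖u‖ ^ 2) / r) := by ring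
      rw [h6]
      apply mul_le_mul_of_nonneg_left _ ht0.le
      rw [div_le_iff₀ hr]
      refine le_trans ?_ ht2
      apply mul_le_mul_of_nonneg_left _ ht0.le
      apply mul_le_mul_of_nonneg_left _ hC.le
      have := norm_nonneg u
      nlinarith
    have h7 : t * ‖D u‖ ≤ t * (‖u‖ + ε) := by linarith
    exact le_of_mul_le_mul_left h7 ht0
  have hle' : ∀ u, ‖D.adjoint u‖ ≤ ‖u‖ := by
    intro u
    by_cases h0 : ‖D.adjoint u‖ = 0
    · rw [h0]; exact norm_nonneg _
    have h1 : ‖D.adjoint u‖ ^ 2 = ⟪D (D.adjoint u), u⟫ := by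
      rw [← real_inner_self_eq_norm_sq, ContinuousLinearMap.adjoint_inner_right]
    have h2 : ⟪D (D.adjoint u), u⟫ ≤ ‖D.adjoint u‖ * ‖u‖ :=
      (real_inner_le_norm _ _).trans (mul_le_mul_of_nonneg_right (hle _) (norm_nonneg _))
    have h3 : 0 < ‖D.adjoint u‖ := lt_of_le_of_ne (norm_nonneg _) (Ne.symm h0)
    have h4 : ‖D.adjoint u‖ * ‖D.adjoint u‖ ≤ ‖D.adjoint u‖ * ‖u‖ := by
      rw [← sq, h1]; exact h2
    exact le_of_mul_le_mul_left h4 h3
  have hDD : ∀ i, D (D.adjoint (A.α i)) = A.α i := by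
    intro i
    have hna : 0 < ‖A.α i‖ := norm_pos_iff.mpr (A.ne i)
    have h1 : ‖D (D.adjoint (A.α i))‖ ≤ ‖A.α i‖ := (hle _).trans (hle' _)
    have h2 : ‖A.α i‖ * ‖A.α i‖ ≤ ⟪A.α i, D (D.adjoint (A.α i))⟫ := by
      rw [real_inner_comm, ← ContinuousLinearMap.adjoint_inner_right, real_inner_self_eq_norm_sq,
        hDa i, sq]
    have := eq_smul_of_inner_ge (norm_nonneg _) (A.ne i) h1 h2
    rwa [div_self hna.ne', one_smul] at this
  have hDD' : ∀ v : E, D (D.adjoint v) = v := by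
    intro v
    have hv : v ∈ Submodule.span ℝ (Set.range A.α) := by rw [A.span]; trivial
    induction hv using Submodule.span_induction with
    | mem v hv =>
      obtain ⟨i, rfl⟩ := hv
      exact hDD i
    | zero => simp
    | add a b _ _ ha hb => rw [map_add, map_add, ha, hb]
    | smul c a _ ha => rw [map_smul, map_smul, ha]
  have hiso' : ∀ v, ‖D.adjoint v‖ = ‖v‖ := by
    intro v
    apply le_antisymm (hle' v)
    calc ‖v‖ = ‖D (D.adjoint v)‖ := by rw [hDD']
      _ ≤ ‖D.adjoint v‖ := hle _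
  have hinj : Function.Injective (D.adjoint).toLinearMap := by
    intro x y hxy
    have h1 : D.adjoint x = D.adjoint y := hxy
    rw [← hDD' x, ← hDD' y, h1]
  intro u
  obtain ⟨v, hv⟩ := LinearMap.injective_iff_surjective.mp hinj u
  have hv' : D.adjoint v = u := hv
  rw [← hv', hDD', hiso']

/-- exact local isometry at `x` -/
theorem local_iso_aux {C : ℝ} (hC : 0 < C) (hφ : ContinuousOn φ (closedBall 0 R))
    {x : E} {δ : ℝ} (hδ : 0 < δ) (hδR : closedBall x δ ⊆ closedBall 0 R)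
    (hδC : C * (2 * δ) ≤ 1 / 2)
    (hlip : ∀ x ∈ closedBall (0 : E) R, ∀ y ∈ closedBall (0 : E) R, ‖φ x - φ y‖ ≤ ‖x - y‖)
    (hD : ∀ y ∈ closedBall x δ, ∃ D : E →L[ℝ] E, ODer R φ y C D)
    {y : E} (hy : ‖y - x‖ ≤ δ / 4) : ‖φ y - φ x‖ = ‖y - x‖ := by
  have hxR : x ∈ closedBall (0 : E) R := hδR (mem_closedBall_self hδ.le)
  have hyδ : y ∈ closedBall x δ := by
    rw [mem_closedBall, dist_eq_norm]; linarith
  have hyR := hδR hyδ
  apply le_antisymm (hlip _ hyR _ hxR)
  -- lower bound with constant `1/2`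
  have hhalf : ∀ z ∈ closedBall x δ, ‖z - x‖ / 2 ≤ ‖φ z - φ x‖ := by
    intro z hz
    obtain ⟨D, hDz⟩ := hD x (mem_closedBall_self hδ.le)
    have h1 := hDz.rem z (hδR hz)
    have h2 : ‖D (z - x)‖ ≤ ‖φ z - φ x‖ + ‖φ z - φ x - D (z - x)‖ := by
      have := norm_sub_le (φ z - φ x) (φ z - φ x - D (z - x))
      rwa [sub_sub_cancel] at this
    rw [hDz.iso] at h2
    have h3 : ‖z - x‖ ≤ δ := by rwa [mem_closedBall, dist_eq_norm] at hz
    have h4 : C * ‖z - x‖ ^ 2 ≤ ‖z - x‖ / 2 := by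
      have h5 : C * ‖z - x‖ ≤ 1 / 2 := by nlinarith
      have := mul_le_mul_of_nonneg_right h5 (norm_nonneg (z - x))
      nlinarith
    linarith
  -- it suffices to prove the bound with every constant `c < 1`
  have key : ∀ c : ℝ, 1 / 2 ≤ c → c < 1 → c * ‖y - x‖ ≤ ‖φ y - φ x‖ := by
    intro c hc hc1
    set g : E → ℝ := fun z => ‖φ z - φ x‖ + c * ‖z - y‖ with hg
    have hgc : ContinuousOn g (closedBall x δ) := by
      apply ContinuousOn.add
      · exact ((hφ.mono hδR).sub continuousOn_const).norm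
      · fun_prop
    obtain ⟨z, hz, hzmin⟩ := (isCompact_closedBall x δ).exists_isMinOn
      ⟨x, mem_closedBall_self hδ.le⟩ hgc
    have hzmin' : ∀ z' ∈ closedBall x δ, g z ≤ g z' := fun z' hz' => hzmin hz'
    have hgz : g z ≤ δ / 4 := by
      refine (hzmin' y hyδ).trans ?_
      simp only [hg, sub_self, norm_zero, mul_zero, add_zero]
      exact (hlip _ hyR _ hxR).trans hy
    have hzy : ‖z - y‖ ≤ δ / 2 := by
      have h1 : c * ‖z - y‖ ≤ δ / 4 := by
        have : 0 ≤ ‖φ z - φ x‖ := norm_nonneg _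
        simp only [hg] at hgz
        linarith
      have h2 : 1 / 2 * ‖z - y‖ ≤ c * ‖z - y‖ := mul_le_mul_of_nonneg_right hc (norm_nonneg _)
      linarith
    have hzx : ‖z - x‖ ≤ 3 * δ / 4 := by
      have : ‖z - x‖ ≤ ‖z - y‖ + ‖y - x‖ := by
        have := norm_add_le (z - y) (y - x)
        simpa using this
      linarith
    by_cases hp : φ z = φ x
    · -- then `z = x`
      have h1 := hhalf z hz
      rw [hp, sub_self, norm_zero] at h1
      have h2 : ‖z - x‖ = 0 := le_antisymm (by linarith) (norm_nonneg _)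
      have h3 : z = x := sub_eq_zero.mp (norm_eq_zero.mp h2)
      have h4 := hzmin' y hyδ
      simp only [hg, sub_self, norm_zero, mul_zero, add_zero, h3, zero_add] at h4
      rw [← norm_sub_rev x y]
      exact h4
    · exfalso
      obtain ⟨D, hDz⟩ := hD z hz
      set p : E := φ z - φ x with hpdef
      have hp0 : 0 < ‖p‖ := norm_pos_iff.mpr (sub_ne_zero.mpr hp)
      obtain ⟨u, hu, hun⟩ := hDz.surj (-p)
      rw [norm_neg] at hun
      set t : ℝ := min (min 1 (δ / (4 * ‖p‖))) ((1 - c) / (2 * C * ‖p‖)) with ht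
      have hc1' : 0 < 1 - c := by linarith
      have ht0 : 0 < t := by
        refine lt_min (lt_min one_pos (by positivity)) (by positivity)
      have ht1 : t ≤ 1 := (min_le_left _ _).trans (min_le_left _ _)
      have ht2 : t * ‖p‖ ≤ δ / 4 := by
        have : t ≤ δ / (4 * ‖p‖) := (min_le_left _ _).trans (min_le_right _ _)
        rw [le_div_iff₀ (by positivity)] at this
        linarith
      have ht3 : t * (2 * C * ‖p‖) ≤ 1 - c := by
        have : t ≤ (1 - c) / (2 * C * ‖p‖) := min_le_right _ _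
        rwa [le_div_iff₀ (by positivity)] at this
      have hzt : z + t • u ∈ closedBall x δ := by
        rw [mem_closedBall, dist_eq_norm]
        have h1 : ‖z + t • u - x‖ ≤ ‖z - x‖ + ‖t • u‖ := by
          have := norm_add_le (z - x) (t • u)
          rwa [sub_add_eq_add_sub] at this
        rw [norm_smul, Real.norm_eq_abs, abs_of_pos ht0, hun] at h1
        linarith
      have hrem := hDz.rem _ (hδR hzt)
      rw [add_sub_cancel_left, map_smul, hu, norm_smul, Real.norm_eq_abs, abs_of_pos ht0,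
        hun] at hrem
      have hmin := hzmin' _ hzt
      have h5 : ‖φ (z + t • u) - φ x‖ ≤ (1 - t) * ‖p‖ + C * (t * ‖p‖) ^ 2 := by
        have e1 : φ (z + t • u) - φ x = (1 - t) • p + (φ (z + t • u) - φ z - t • (-p)) := by
          rw [sub_smul, one_smul, smul_neg, hpdef]
          abel
        rw [e1]
        refine (norm_add_le _ _).trans (add_le_add ?_ hrem)
        rw [norm_smul, Real.norm_eq_abs, abs_of_nonneg (by linarith)]
      have h6 : ‖z + t • u - y‖ ≤ ‖z - y‖ + t * ‖p‖ := by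
        have h7 := norm_add_le (z - y) (t • u)
        rw [norm_smul, Real.norm_eq_abs, abs_of_pos ht0, hun] at h7
        rwa [sub_add_eq_add_sub] at h7
      have h7 : c * ‖z + t • u - y‖ ≤ c * ‖z - y‖ + c * (t * ‖p‖) := by
        have := mul_le_mul_of_nonneg_left h6 (by linarith : (0 : ℝ) ≤ c)
        linarith
      simp only [hg] at hmin
      have h8 : C * (t * ‖p‖) ^ 2 ≤ (1 - c) / 2 * (t * ‖p‖) := by
        have : C * (t * ‖p‖) ≤ (1 - c) / 2 := by nlinarith
        have := mul_le_mul_of_nonneg_right this (by positivity : (0 : ℝ) ≤ t * ‖p‖)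
        nlinarith
      have h9 : 0 < t * ‖p‖ := by positivity
      nlinarith
  by_contra hlt
  push Not at hlt
  have hd : 0 < ‖y - x‖ := lt_of_le_of_lt (norm_nonneg _) hlt
  have h1 := key (max (1 / 2) ((1 + ‖φ y - φ x‖ / ‖y - x‖) / 2)) (le_max_left _ _)
    (max_lt (by norm_num) (by
      have : ‖φ y - φ x‖ / ‖y - x‖ < 1 := by rwa [div_lt_one hd]
      linarith))
  have h2 : (1 + ‖φ y - φ x‖ / ‖y - x‖) / 2 * ‖y - x‖ ≤
      max (1 / 2) ((1 + ‖φ y - φ x‖ / ‖y - x‖) / 2) * ‖y - x‖ :=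
    mul_le_mul_of_nonneg_right (le_max_right _ _) hd.le
  have h3 : (1 + ‖φ y - φ x‖ / ‖y - x‖) / 2 * ‖y - x‖ = (‖y - x‖ + ‖φ y - φ x‖) / 2 := by
    field_simp
  linarith

omit [FiniteDimensional ℝ E] in
theorem ODer.differentiableAt {x : E} {C : ℝ} {D : E →L[ℝ] E} (h : ODer R φ x C D)
    (hx : ‖x‖ < R) : HasFDerivAt φ D x := by
  rw [hasFDerivAt_iff_isLittleO_nhds_zero]
  have hball : ∀ᶠ u : E in 𝓝 0, x + u ∈ closedBall (0 : E) R := by
    filter_upwards [Metric.closedBall_mem_nhds (0 : E) (show 0 < R - ‖x‖ by linarith)] with u hu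
    rw [mem_closedBall, dist_zero_right] at hu ⊢
    have := norm_add_le x u
    linarith
  have hbig : (fun u : E => φ (x + u) - φ x - D u) =O[𝓝 0] fun u => ‖u‖ ^ 2 := by
    apply Asymptotics.IsBigO.of_bound C
    filter_upwards [hball] with u hu
    have h1 := h.rem _ hu
    rw [add_sub_cancel_left] at h1
    rw [Real.norm_eq_abs, abs_of_nonneg (by positivity)]
    exact h1
  refine hbig.trans_isLittleO ?_
  have h2 : (fun u : E => ‖u‖ ^ 2) =o[𝓝 0] fun u : E => u := by
    have := Asymptotics.isLittleO_norm_pow_id (E' := E) one_lt_two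
    exact this
  exact h2

/-- differentiate the exact local isometry property -/
theorem ODer.exact {x y : E} {C : ℝ} {D : E →L[ℝ] E} (h : ODer R φ y C D) (hy : ‖y‖ < R)
    (hloc : ∀ᶠ z in 𝓝 y, ‖φ z - φ x‖ = ‖z - x‖) : φ y - φ x = D (y - x) := by
  have hder := h.differentiableAt hy
  have h1 : HasFDerivAt (fun z => ‖φ z - φ x‖ ^ 2) (2 • (innerSL ℝ (φ y - φ x)).comp D) y :=
    (hder.sub_const (φ x)).norm_sq
  have h2 : HasFDerivAt (fun z => ‖z - x‖ ^ 2)
      (2 • (innerSL ℝ (y - x)).comp (ContinuousLinearMap.id ℝ E)) y :=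
    ((hasFDerivAt_id y).sub_const x).norm_sq
  have h3 : (fun z => ‖φ z - φ x‖ ^ 2) =ᶠ[𝓝 y] fun z => ‖z - x‖ ^ 2 := by
    filter_upwards [hloc] with z hz
    rw [hz]
  have h4 := (h2.congr_of_eventuallyEq h3).unique h1
  have h5 := congrArg (fun L : E →L[ℝ] ℝ => L (y - x)) h4
  simp only [_root_.smul_apply, ContinuousLinearMap.comp_apply,
    ContinuousLinearMap.id_apply, innerSL_apply_apply, nsmul_eq_mul, Nat.cast_ofNat] at h5
  have h6 : ⟪y - x, y - x⟫ = ⟪φ y - φ x, D (y - x)⟫ := by linarith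
  rw [real_inner_self_eq_norm_sq] at h6
  have hself := hloc.self_of_nhds
  have h7 : ‖φ y - φ x - D (y - x)‖ ^ 2 = 0 := by
    rw [norm_sub_sq_real, h.iso, hself, ← h6]
    ring
  exact sub_eq_zero.mp (norm_eq_zero.mp (by simpa using h7))

omit [FiniteDimensional ℝ E] in
theorem Rig.continuousOn (h : Rig A R φ) : ContinuousOn φ (closedBall 0 R) := by
  have : LipschitzOnWith 1 φ (closedBall 0 R) := by
    apply LipschitzOnWith.of_dist_le_mul
    intro x hx y hy
    rw [dist_eq_norm, dist_eq_norm, NNReal.coe_one, one_mul]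
    exact h.lip x hx y hy
  exact this.continuousOn

/-- near every interior point `φ` is affine with orthogonal linear part -/
theorem Rig.local_affine (h : Rig A R φ) {x : E} (hx : ‖x‖ < R) : ∃ D : E →L[ℝ] E,
    (∀ u, ‖D u‖ = ‖u‖) ∧ HasFDerivAt φ D x ∧ ∀ᶠ y in 𝓝 x, φ y = φ x + D (y - x) := by
  obtain ⟨C₀, hC₀, hod⟩ := A.exists_oder
  set r : ℝ := (R - ‖x‖) / 2 with hr
  have hr0 : 0 < r := by rw [hr]; linarith
  set C : ℝ := C₀ / r with hCdef
  have hC : 0 < C := by positivity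
  set δ : ℝ := min (r / 2) (1 / (4 * C)) with hδ
  have hδ0 : 0 < δ := lt_min (by positivity) (by positivity)
  have hδC : C * (2 * δ) ≤ 1 / 2 := by
    have h1 : δ ≤ 1 / (4 * C) := min_le_right _ _
    rw [le_div_iff₀ (by positivity)] at h1
    linarith
  have hδr : δ ≤ r / 2 := min_le_left _ _
  -- every point of `closedBall x (2 δ)` has an orthogonal derivative with constant `C`
  have hD : ∀ y : E, ‖y - x‖ ≤ r → ∃ D : E →L[ℝ] E, ODer R φ y C D := by
    intro y hy
    apply hod h hr0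
    have : ‖y‖ ≤ ‖y - x‖ + ‖x‖ := by simpa using norm_add_le (y - x) x
    rw [hr] at hy ⊢
    linarith
  -- exact isometry around every point close to `x`
  have hiso : ∀ y : E, ‖y - x‖ ≤ r / 2 → ∀ z : E, ‖z - y‖ ≤ δ / 4 → ‖φ z - φ y‖ = ‖z - y‖ := by
    intro y hy z hz
    apply local_iso_aux hC h.continuousOn hδ0 _ hδC h.lip _ hz
    · apply sub_ball
      have : ‖y‖ ≤ ‖y - x‖ + ‖x‖ := by simpa using norm_add_le (y - x) x
      rw [hr] at hy hδr
      linarith
    · intro z' hz'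
      apply hD
      rw [mem_closedBall, dist_eq_norm] at hz'
      have : ‖z' - x‖ ≤ ‖z' - y‖ + ‖y - x‖ := by simpa using norm_add_le (z' - y) (y - x)
      linarith
  obtain ⟨D, hDx⟩ := hD x (by simpa using hr0.le)
  refine ⟨D, hDx.iso, hDx.differentiableAt hx, ?_⟩
  filter_upwards [Metric.ball_mem_nhds x (show 0 < δ / 8 by positivity)] with y hy
  rw [mem_ball, dist_eq_norm] at hy
  have hyx : ‖y - x‖ ≤ r / 2 := by linarith
  have hloc : ∀ᶠ z in 𝓝 x, ‖φ z - φ y‖ = ‖z - y‖ := by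
    filter_upwards [Metric.ball_mem_nhds x (show 0 < δ / 8 by positivity)] with z hz
    rw [mem_ball, dist_eq_norm] at hz
    apply hiso y hyx
    have : ‖z - y‖ ≤ ‖z - x‖ + ‖x - y‖ := by simpa using norm_add_le (z - x) (x - y)
    rw [norm_sub_rev x y] at this
    linarith
  have h1 := hDx.exact hx hloc
  have h2 : φ y = φ x - D (x - y) := by rw [← h1]; abel
  rw [h2, ← neg_sub x y, map_neg]
  abel

/-- **window rigidity** -/
theorem Rig.affine (h : Rig A R φ) : ∃ M : E ≃ₗᵢ[ℝ] E,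
    ∀ w ∈ closedBall (0 : E) R, φ w = φ 0 + M w := by
  rcases lt_or_ge 0 R with hR | hR
  swap
  · refine ⟨LinearIsometryEquiv.refl ℝ E, fun w hw => ?_⟩
    have : w = 0 := by
      rw [mem_closedBall, dist_zero_right] at hw
      exact norm_le_zero_iff.mp (hw.trans hR)
    rw [this]
    simp
  choose D hDiso hDder hDloc using fun x : {x : E // ‖x‖ < R} => h.local_affine x.2
  have hfd : ∀ x : {x : E // ‖x‖ < R}, fderiv ℝ φ x = D x := fun x => (hDder x).fderiv
  -- the derivative is locally constant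
  have hloc : ∀ x : {x : E // ‖x‖ < R}, fderiv ℝ φ =ᶠ[𝓝 (x : E)] fun _ => D x := by
    intro x
    have h1 : ∀ᶠ y in 𝓝 (x : E), ∀ᶠ z in 𝓝 y, φ z = φ x + D x (z - x) :=
      eventually_eventually_nhds.mpr (hDloc x)
    filter_upwards [h1] with y hy
    have h2 : HasFDerivAt (fun z => φ x + D x (z - x)) (D x) y := by
      have := ((D x).hasFDerivAt.comp y ((hasFDerivAt_id y).sub_const (x : E))).const_add (φ x)
      simpa using this
    exact (h2.congr_of_eventuallyEq hy).fderiv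
  have hopen : IsOpen (ball (0 : E) R) := isOpen_ball
  have hpre : IsPreconnected (ball (0 : E) R) := (convex_ball _ _).isPreconnected
  have hconst : ∀ x ∈ ball (0 : E) R, fderiv ℝ φ x = fderiv ℝ φ 0 := by
    intro x hx
    refine IsOpen.is_const_of_fderiv_eq_zero (𝕜 := ℝ) (f := fderiv ℝ φ) hopen hpre ?_ ?_ hx
      (mem_ball_self hR)
    · intro y hy
      rw [mem_ball, dist_zero_right] at hy
      have := (hasFDerivAt_const (𝕜 := ℝ) (D ⟨y, hy⟩) y).congr_of_eventuallyEq (hloc ⟨y, hy⟩)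
      exact this.differentiableAt.differentiableWithinAt
    · intro y hy
      rw [mem_ball, dist_zero_right] at hy
      have := (hasFDerivAt_const (𝕜 := ℝ) (D ⟨y, hy⟩) y).congr_of_eventuallyEq (hloc ⟨y, hy⟩)
      exact this.fderiv
  set D₀ : E →L[ℝ] E := D ⟨0, by simpa using hR⟩ with hD₀
  have hD₀' : fderiv ℝ φ 0 = D₀ := hfd ⟨0, by simpa using hR⟩
  -- `φ - D₀` is constant on the open ball
  have hin : ∀ x ∈ ball (0 : E) R, φ x = φ 0 + D₀ x := by
    intro x hx
    have h1 : (fun y => φ y - D₀ y) x = (fun y => φ y - D₀ y) 0 := by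
      refine IsOpen.is_const_of_fderiv_eq_zero (𝕜 := ℝ) (f := fun y => φ y - D₀ y) hopen hpre
        ?_ ?_ hx (mem_ball_self hR)
      · intro y hy
        rw [mem_ball, dist_zero_right] at hy
        exact ((hDder ⟨y, hy⟩).sub D₀.hasFDerivAt).differentiableAt.differentiableWithinAt
      · intro y hy
        have hy' := hy
        rw [mem_ball, dist_zero_right] at hy
        have h2 : fderiv ℝ (fun y => φ y - D₀ y) y = D ⟨y, hy⟩ - D₀ :=
          ((hDder ⟨y, hy⟩).sub D₀.hasFDerivAt).fderiv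
        rw [h2, ← hfd ⟨y, hy⟩, hconst y hy', hD₀', sub_self]
        rfl
    simp only [map_zero, sub_zero] at h1
    rw [← h1]
    abel
  -- closed ball by continuity
  have hcl : ∀ w ∈ closedBall (0 : E) R, φ w = φ 0 + D₀ w := by
    intro w hw
    have hball : closure (ball (0 : E) R) = closedBall 0 R := closure_ball 0 hR.ne'
    have h1 : ContinuousOn (fun x => φ 0 + D₀ x) (closedBall (0 : E) R) := by fun_prop
    have h2 : Set.EqOn φ (fun x => φ 0 + D₀ x) (closedBall (0 : E) R) :=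
      Set.EqOn.of_subset_closure (s := ball (0 : E) R) (fun x hx => hin x hx) h.continuousOn h1
        ball_subset_closedBall hball.ge
    exact h2 hw
  let L : E →ₗᵢ[ℝ] E := ⟨D₀.toLinearMap, fun x => hDiso _ x⟩
  refine ⟨L.toLinearIsometryEquiv rfl, fun w hw => ?_⟩
  rw [hcl w hw]
  rfl

end Vale.P188.H654
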